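import Mathlib.Algebra.Category.ModuleCat.Abelian
import Mathlib.Algebra.Category.ModuleCat.Projective
import Mathlib.Algebra.Category.ModuleCat.EnoughInjectives
import Mathlib.Algebra.Category.ModuleCat.Ext.Basic
import Mathlib.Algebra.Category.ModuleCat.Ext.HasExt
import Mathlib.Algebra.Category.ModuleCat.Ext.DimensionShifting
import Mathlib.Algebra.Homology.DerivedCategory.Ext.EnoughProjectives
import Mathlib.Algebra.Homology.DerivedCategory.Ext.EnoughInjectives
import Mathlib.Algebra.Homology.DerivedCategory.Ext.ExactSequences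
import Mathlib.Algebra.Homology.DerivedCategory.Ext.Linear
import Mathlib.Tactic

universe u v w

open CategoryTheory CategoryTheory.Abelian

namespace Vale.Agent.P195

variable {R : Type u} [Ring R]

/-- If all `Ext M R i` vanish then so do all `Ext M P i`, `P` f.g. projective (a retract of a
finite power of `R`). -/
lemma ext_eq_zero_of_projective_right {M : ModuleCat.{u} R} {i : ℕ}
    (h : ∀ x : Ext M (ModuleCat.of R R) i, x = 0)
    (P : ModuleCat.{u} R) [Module.Finite R P] [Module.Projective R P]
    (x : Ext M P i) : x = 0 := by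
  obtain ⟨n, f, hf⟩ := Module.Finite.exists_fin' R P
  obtain ⟨s, hs⟩ := Module.projective_lifting_property f LinearMap.id hf
  have key : ∀ y : Ext M (ModuleCat.of R (Fin n → R)) i, y = 0 := by
    intro y
    have hid : (𝟙 (ModuleCat.of R (Fin n → R))) =
        ∑ j : Fin n, ModuleCat.ofHom (LinearMap.proj (R := R) (φ := fun _ : Fin n => R) j) ≫
          ModuleCat.ofHom (LinearMap.single R (fun _ : Fin n => R) j) := by
      apply ModuleCat.hom_ext
      rw [ModuleCat.hom_sum]
      apply LinearMap.ext
      intro v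
      rw [LinearMap.sum_apply]
      simp only [ModuleCat.hom_id, LinearMap.id_coe, id_eq, ModuleCat.hom_comp, ModuleCat.hom_ofHom,
        LinearMap.coe_comp, Function.comp_apply, LinearMap.coe_single, LinearMap.coe_proj,
        Function.eval]
      exact (Finset.univ_sum_single v).symm
    rw [← Ext.comp_mk₀_id y, hid, Ext.mk₀_sum, Ext.comp_sum]
    apply Finset.sum_eq_zero
    intro j _
    rw [← Ext.mk₀_comp_mk₀, ← Ext.comp_assoc_of_third_deg_zero, h (y.comp _ _), Ext.zero_comp]
  have h1 : x = (x.comp (Ext.mk₀ (ModuleCat.ofHom s)) (add_zero i)).comp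
      (Ext.mk₀ (ModuleCat.ofHom f)) (add_zero i) := by
    rw [Ext.comp_assoc_of_third_deg_zero, Ext.mk₀_comp_mk₀, ← ModuleCat.ofHom_comp, hs]
    exact (Ext.comp_mk₀_id x).symm
  rw [h1, key (x.comp _ _), Ext.zero_comp]

end Vale.Agent.P195
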