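import Mathlib

/-!
Definitions used in the statements about the Auslander-Reiten conjecture (P195).
-/

universe u

open CategoryTheory CategoryTheory.Abelian

namespace Vale.Agent.P195

variable {R : Type u} [Ring R]

/-- `IsSyzygy M n X`: there is an exact sequence
`0 → X → P_{n-1} → ⋯ → P_0 → M → 0` with all `P_i` finitely generated projective. -/
def IsSyzygy (M : ModuleCat.{u} R) : ℕ → ModuleCat.{u} R → Prop
  | 0, X => Nonempty (X ≃ₗ[R] M)
  | n + 1, X => ∃ (P Y : ModuleCat.{u} R) (f : X →ₗ[R] P) (g : P →ₗ[R] Y),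
      Module.Finite R P ∧ Module.Projective R P ∧
      Function.Injective f ∧ Function.Exact f g ∧ Function.Surjective g ∧ IsSyzygy M n Y

/-- `IsFiniteSumOf V Y`: the module `Y` is isomorphic to a finite direct sum of copies of
members of the family `V`. -/
def IsFiniteSumOf {ι : Type} (V : ι → ModuleCat.{u} R) (Y : ModuleCat.{u} R) : Prop :=
  ∃ (n : ℕ) (σ : Fin n → ι), Nonempty (Y ≃ₗ[R] ((i : Fin n) → V (σ i)))

end Vale.Agent.P195
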