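import Mathlib
import Vale.Agent.Lib.P195.Defs
import Vale.Agent.Lib.P195.ExtAux

universe u v w

open CategoryTheory CategoryTheory.Abelian

namespace Vale.Agent.P195

variable {R : Type u} [Ring R]

/-- The short complex attached to an exact pair of linear maps. -/
lemma exists_shortExact {X P Y : ModuleCat.{u} R} (f : X →ₗ[R] P) (g : P →ₗ[R] Y)
    (hf : Function.Injective f) (hfg : Function.Exact f g) (hg : Function.Surjective g) :
    ∃ (w : (ModuleCat.ofHom f : X ⟶ P) ≫ (ModuleCat.ofHom g : P ⟶ Y) = 0),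
      (ShortComplex.mk (ModuleCat.ofHom f : X ⟶ P) (ModuleCat.ofHom g : P ⟶ Y) w).ShortExact := by
  refine ⟨?_, ?_⟩
  · apply ModuleCat.hom_ext
    apply LinearMap.ext
    intro x
    exact hfg.apply_apply_eq_zero x
  · exact ModuleCat.shortComplex_shortExact _ hfg hf hg

/-- Splitting of a surjection onto a module with vanishing extension class. -/
lemma projective_of_extClass_eq_zero {S : ShortComplex (ModuleCat.{u} R)} (hS : S.ShortExact)
    (hP : Module.Projective R S.X₂) (h0 : hS.extClass = 0) : Module.Projective R S.X₃ := by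
  obtain ⟨x₂, hx₂⟩ := Ext.covariant_sequence_exact₃ S.X₃ hS (Ext.mk₀ (𝟙 S.X₃)) (zero_add 1)
    (by rw [h0, Ext.comp_zero])
  obtain ⟨s, rfl⟩ := Ext.homEquiv₀.symm.surjective x₂
  change (Ext.mk₀ s).comp _ _ = _ at hx₂
  rw [Ext.mk₀_comp_mk₀] at hx₂
  have hs : s ≫ S.g = 𝟙 S.X₃ := by
    apply (Ext.mk₀_bijective (X := S.X₃) (Y := S.X₃)).1
    exact hx₂
  refine Module.Projective.of_split s.hom S.g.hom ?_
  have := congrArg ModuleCat.Hom.hom hs
  simpa using this

/-- The properties of an `l`-th syzygy of a nonprojective module with the AR condition. -/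
lemma syzygy_class {M : ModuleCat.{u} R} (hMM : ∀ i, 1 ≤ i → ∀ x : Ext M M i, x = 0)
    (hMR : ∀ i, 1 ≤ i → ∀ x : Ext M (ModuleCat.of R R) i, x = 0)
    (hM : ¬ Module.Projective R M) :
    ∀ (l : ℕ) (X : ModuleCat.{u} R), IsSyzygy M l X →
      (∀ i, l < i → ∀ x : Ext M X i, x = 0) ∧
      ∃ T : Ext M X l, T ≠ 0 ∧ (l = 0 → ∃ (e : M ≅ X), ∀ (h : l = 0), h ▸ T = Ext.mk₀ e.hom) ∧
        (∀ (m n : ℕ) (h : l + m = n) (Z : ModuleCat.{u} R) (y : Ext M Z n),
          ∃ y' : Ext X Z m, T.comp y' h = y) := by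
  intro l
  induction l with
  | zero =>
    rintro X ⟨e⟩
    let e' : M ≅ X := (LinearEquiv.toModuleIso e).symm
    refine ⟨?_, Ext.mk₀ e'.hom, ?_, ?_, ?_⟩
    · intro i hi x
      have h1 : x = (x.comp (Ext.mk₀ e'.inv) (add_zero i)).comp (Ext.mk₀ e'.hom) (add_zero i) := by
        rw [Ext.comp_assoc_of_third_deg_zero, Ext.mk₀_comp_mk₀, e'.inv_hom_id, Ext.comp_mk₀_id]
      rw [h1, hMM i hi (x.comp _ _), Ext.zero_comp]
    · intro h0
      rw [Ext.mk₀_eq_zero_iff] at h0
      apply hM
      have h1 : (𝟙 M) = 0 := by rw [← e'.hom_inv_id, h0, Limits.zero_comp]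
      have h2 : ∀ m : M, m = 0 := by
        intro m
        have := congrArg (fun f : M ⟶ M => f.hom m) h1
        simpa using this
      have : Subsingleton M := ⟨fun a b => by rw [h2 a, h2 b]⟩
      have : Module.Free R M := Module.Free.of_subsingleton R M
      exact Module.Projective.of_free
    · intro _
      exact ⟨e', fun _ => rfl⟩
    · intro m n h Z y
      obtain rfl : n = m := by omega
      refine ⟨(Ext.mk₀ e'.inv).comp y (zero_add n), ?_⟩
      rw [Ext.mk₀_comp_mk₀_assoc, e'.hom_inv_id, Ext.mk₀_id_comp]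
  | succ l ih =>
    rintro X ⟨P, Y, f, g, hPf, hPp, hf, hfg, hg, hY⟩
    obtain ⟨hvan, T, hT0, hTe, hTs⟩ := ih Y hY
    obtain ⟨w, hS⟩ := exists_shortExact f g hf hfg hg
    have hP0 : ∀ i, 1 ≤ i → ∀ x : Ext M P i, x = 0 := fun i hi x =>
      ext_eq_zero_of_projective_right (hMR i hi) P x
    refine ⟨?_, T.comp hS.extClass rfl, ?_, ?_, ?_⟩
    · intro i hi x
      obtain ⟨j, rfl⟩ : ∃ j, i = j + 1 := ⟨i - 1, by omega⟩
      obtain ⟨x₃, rfl⟩ := Ext.covariant_sequence_exact₁ M hS x (hP0 _ (by omega) _) rfl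
      have : x₃ = 0 := hvan j (by omega) x₃
      rw [this, Ext.zero_comp]
    · intro h0
      rcases Nat.eq_zero_or_pos l with rfl | hl
      · obtain ⟨e, he⟩ := hTe rfl
        have he' : T = Ext.mk₀ e.hom := he rfl
        apply hM
        have h1 : hS.extClass = 0 := by
          have : (Ext.mk₀ e.inv).comp ((Ext.mk₀ e.hom).comp hS.extClass (zero_add 1))
              (zero_add 1) = hS.extClass := by
            rw [Ext.mk₀_comp_mk₀_assoc, e.inv_hom_id, Ext.mk₀_id_comp]
          rw [← this]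
          subst he'
          change (Ext.mk₀ e.inv).comp ((Ext.mk₀ e.hom).comp hS.extClass rfl) (zero_add 1) = 0
          rw [h0, Ext.comp_zero]
        have h2 : Module.Projective R Y := projective_of_extClass_eq_zero hS hPp h1
        exact Module.Projective.of_equiv (e.symm.toLinearEquiv)
      · obtain ⟨x₂, hx₂⟩ := Ext.covariant_sequence_exact₃ M hS T rfl h0
        apply hT0
        have h3 : x₂ = 0 := hP0 l hl x₂
        rw [← hx₂, h3, Ext.zero_comp]
    · intro h
      omega
    · intro m n h Z y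
      obtain ⟨y', rfl⟩ := hTs (1 + m) n (by omega) Z y
      have hPP : Projective P := (IsProjective.iff_projective P).mp hPp
      obtain ⟨y'', rfl⟩ := Ext.contravariant_sequence_exact₃ hS Z
        (n₁ := 1 + m) y' (by
          have : ∀ z : Ext P Z (1 + m), z = 0 := by
            rw [add_comm]
            exact fun z => Ext.eq_zero_of_projective z
          exact this _) rfl
      refine ⟨y'', ?_⟩
      rw [Ext.comp_assoc (a₁₂ := l + 1) (a₂₃ := 1 + m) _ _ _ rfl rfl (by omega)]

end Vale.Agent.P195
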