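import Mathlib

universe u

namespace Vale.Agent.P195

variable {R : Type u} [Ring R]

section

variable {F : Type u} [AddCommGroup F] [Module R F]

/-- `J F` -/
abbrev JT (R : Type u) [Ring R] (F : Type u) [AddCommGroup F] [Module R F] : Submodule R F :=
  Ring.jacobson R • (⊤ : Submodule R F)

lemma map_JT_le {F G : Type u} [AddCommGroup F] [Module R F] [AddCommGroup G] [Module R G]
    (f : F →ₗ[R] G) : (JT R F).map f ≤ JT R G := by
  rw [JT, Submodule.map_smul'']
  exact smul_mono_right _ le_top

lemma JT_le_comap {F G : Type u} [AddCommGroup F] [Module R F] [AddCommGroup G] [Module R G]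
    (f : F →ₗ[R] G) : JT R F ≤ (JT R G).comap f :=
  Submodule.map_le_iff_le_comap.mp (map_JT_le f)

/-- reduction of endomorphisms modulo the radical -/
def redEnd (R : Type u) [Ring R] (F : Type u) [AddCommGroup F] [Module R F] :
    Module.End R F →+* Module.End R (F ⧸ JT R F) where
  toFun f := (JT R F).mapQ (JT R F) f (JT_le_comap f)
  map_one' := by
    apply LinearMap.ext
    intro x
    obtain ⟨x, rfl⟩ := (JT R F).mkQ_surjective x
    rfl
  map_mul' f g := by
    apply LinearMap.ext
    intro x
    obtain ⟨x, rfl⟩ := (JT R F).mkQ_surjective x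
    rfl
  map_zero' := by
    apply LinearMap.ext
    intro x
    obtain ⟨x, rfl⟩ := (JT R F).mkQ_surjective x
    rfl
  map_add' f g := by
    apply LinearMap.ext
    intro x
    obtain ⟨x, rfl⟩ := (JT R F).mkQ_surjective x
    rfl

lemma redEnd_surjective [Module.Projective R F] : Function.Surjective (redEnd R F) := by
  intro g
  obtain ⟨f, hf⟩ := Module.projective_lifting_property (JT R F).mkQ (g ∘ₗ (JT R F).mkQ)
    (JT R F).mkQ_surjective
  refine ⟨f, ?_⟩
  apply LinearMap.ext
  intro x
  obtain ⟨x, rfl⟩ := (JT R F).mkQ_surjective x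
  exact LinearMap.congr_fun hf x

lemma isNilpotent_of_mem_ker_redEnd [IsArtinianRing R] (f : Module.End R F)
    (hf : f ∈ RingHom.ker (redEnd R F)) : IsNilpotent f := by
  obtain ⟨n, hn⟩ := IsSemiprimaryRing.isNilpotent (R := R)
  refine ⟨n, ?_⟩
  have h1 : (⊤ : Submodule R F).map f ≤ JT R F := by
    rintro _ ⟨x, -, rfl⟩
    have := LinearMap.congr_fun (RingHom.mem_ker.mp hf) ((JT R F).mkQ x)
    change (JT R F).mkQ (f x) = 0 at this
    rwa [Submodule.mkQ_apply, Submodule.Quotient.mk_eq_zero] at this
  have h2 : ∀ m : ℕ, (⊤ : Submodule R F).map (f ^ m) ≤ (Ring.jacobson R ^ m) • ⊤ := by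
    intro m
    induction m with
    | zero =>
      rw [Submodule.pow_zero, Submodule.one_smul]
      exact le_top
    | succ m ih =>
      have : (⊤ : Submodule R F).map (f ^ (m + 1)) = ((⊤ : Submodule R F).map (f ^ m)).map f := by
        rw [pow_succ', Module.End.mul_eq_comp, Submodule.map_comp]
      rw [this]
      refine (Submodule.map_mono ih).trans ?_
      rw [Submodule.map_smul'', Submodule.pow_succ, Submodule.mul_smul]
      exact smul_mono_right _ h1
  have h3 := h2 n
  rw [hn, Submodule.zero_eq_bot, Submodule.bot_smul, le_bot_iff, Submodule.map_top,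
    LinearMap.range_eq_bot] at h3
  exact h3

end

lemma isSemisimple_quot [IsArtinianRing R] (F : Type u) [AddCommGroup F] [Module R F] :
    IsSemisimpleModule R (F ⧸ JT R F) := by
  have h : Module.IsTorsionBySet R (F ⧸ JT R F) (Ring.jacobson R) := by
    rw [Module.isTorsionBySet_quotient_iff]
    exact fun m i hi ↦ Submodule.smul_mem_smul hi trivial
  let _ := h.module
  exact (h.semilinearMap.isSemisimpleModule_iff_of_bijective Function.bijective_id).2
      inferInstance

/-- Existence of projective covers over artinian rings. -/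
theorem exists_projective_cover [IsArtinianRing R] (M : Type u) [AddCommGroup M] [Module R M]
    [Module.Finite R M] :
    ∃ (P : ModuleCat.{u} R) (g : P →ₗ[R] M), Module.Finite R P ∧ Module.Projective R P ∧
      Function.Surjective g ∧ LinearMap.ker g ≤ Ring.jacobson R • (⊤ : Submodule R P) := by
  obtain ⟨n, π, hπ⟩ := Module.Finite.exists_fin' R M
  have hss := isSemisimple_quot (R := R) (Fin n → R)
  obtain ⟨C, hC⟩ := exists_isCompl ((LinearMap.ker π).map (JT R (Fin n → R)).mkQ)
  set K := (LinearMap.ker π).map (JT R (Fin n → R)).mkQ with hK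
  let ebar : Module.End R ((Fin n → R) ⧸ JT R (Fin n → R)) :=
    C.subtype ∘ₗ (Submodule.projectionOnto C K hC.symm)
  have hebar : IsIdempotentElem ebar := by
    apply LinearMap.ext
    intro x
    simp [ebar]
  obtain ⟨e, he, hee⟩ := exists_isIdempotentElem_eq_of_ker_isNilpotent (redEnd R (Fin n → R))
    (fun f hf => isNilpotent_of_mem_ker_redEnd f hf) ebar (redEnd_surjective ebar) hebar
  have hee' : ∀ x, (JT R (Fin n → R)).mkQ (e x) = ebar ((JT R (Fin n → R)).mkQ x) := by
    intro x
    rw [← hee]
    rfl
  have hid : ∀ x, e (e x) = e x := fun x => LinearMap.congr_fun he x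
  let P := LinearMap.range e
  have hsplit : e.rangeRestrict ∘ₗ P.subtype = LinearMap.id := by
    apply LinearMap.ext
    rintro ⟨_, ⟨x, rfl⟩⟩
    apply Subtype.ext
    exact hid x
  refine ⟨ModuleCat.of R P, π ∘ₗ P.subtype, ?_, ?_, ?_, ?_⟩
  · change Module.Finite R P
    infer_instance
  · change Module.Projective R P
    exact Module.Projective.of_split P.subtype e.rangeRestrict hsplit
  · -- surjectivity by Nakayama
    let Q := M ⧸ LinearMap.range (π ∘ₗ P.subtype)
    have hQ : (⊤ : Submodule R Q) ≤ Ring.jacobson R • (⊤ : Submodule R Q) := by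
      intro q _
      obtain ⟨m, rfl⟩ := Submodule.mkQ_surjective _ q
      obtain ⟨x, rfl⟩ := hπ m
      have h1 : (JT R (Fin n → R)).mkQ (x - e x) ∈ K := by
        rw [map_sub, hee']
        have h2 : (JT R (Fin n → R)).mkQ x - ebar ((JT R (Fin n → R)).mkQ x) ∈ K := by
          have := Submodule.projectionOnto_apply_eq_zero_iff hC.symm
            (x := (JT R (Fin n → R)).mkQ x - ebar ((JT R (Fin n → R)).mkQ x))
          rw [← this, map_sub]
          change C.projectionOnto K hC.symm _ - C.projectionOnto K hC.symm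
            ((C.projectionOnto K hC.symm _ : C) : _) = 0
          rw [Submodule.projectionOnto_apply_left, sub_self]
        exact h2
      obtain ⟨κ, hκ, hκ'⟩ := h1
      have h3 : x - e x - κ ∈ JT R (Fin n → R) := by
        have : (JT R (Fin n → R)).mkQ (x - e x - κ) = 0 := by
          rw [map_sub, hκ', sub_self]
        rwa [Submodule.mkQ_apply, Submodule.Quotient.mk_eq_zero] at this
      have h4 : (LinearMap.range (π ∘ₗ P.subtype)).mkQ (π x) =
          (LinearMap.range (π ∘ₗ P.subtype)).mkQ (π (x - e x - κ)) := by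
        rw [← sub_eq_zero, ← map_sub, ← map_sub]
        have : x - (x - e x - κ) = e x + κ := by abel
        rw [this, map_add, LinearMap.mem_ker.mp hκ, add_zero, Submodule.mkQ_apply,
          Submodule.Quotient.mk_eq_zero]
        exact ⟨⟨e x, ⟨x, rfl⟩⟩, rfl⟩
      rw [h4]
      have h5 := JT_le_comap ((LinearMap.range (π ∘ₗ P.subtype)).mkQ ∘ₗ π) h3
      exact h5
    have hfg : (⊤ : Submodule R Q).FG := Module.Finite.fg_top
    have := hfg.eq_bot_of_le_jacobson_smul hQ
    have hr : LinearMap.range (π ∘ₗ P.subtype) = ⊤ := by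
      rw [eq_top_iff]
      intro m _
      have h1 : (LinearMap.range (π ∘ₗ P.subtype)).mkQ m ∈ (⊤ : Submodule R Q) := trivial
      rw [this, Submodule.mem_bot, Submodule.mkQ_apply, Submodule.Quotient.mk_eq_zero] at h1
      exact h1
    exact LinearMap.range_eq_top.mp hr
  · rintro ⟨p, hp⟩ hker
    have hπp : π p = 0 := hker
    have hep : e p = p := by
      obtain ⟨x, rfl⟩ := hp
      exact hid x
    have h1 : (JT R (Fin n → R)).mkQ p ∈ K := ⟨p, hπp, rfl⟩
    have h2 : (JT R (Fin n → R)).mkQ p ∈ C := by
      rw [← hep, hee']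
      exact Submodule.coe_mem _
    have h3 : (JT R (Fin n → R)).mkQ p = 0 := by
      have : (JT R (Fin n → R)).mkQ p ∈ K ⊓ C := ⟨h1, h2⟩
      rwa [hC.inf_eq_bot, Submodule.mem_bot] at this
    rw [Submodule.mkQ_apply, Submodule.Quotient.mk_eq_zero] at h3
    have h4 := JT_le_comap e.rangeRestrict h3
    have h5 : e.rangeRestrict p = (⟨p, hp⟩ : P) := by
      apply Subtype.ext
      exact hep
    change e.rangeRestrict p ∈ JT R P at h4
    rw [h5] at h4
    exact h4

end Vale.Agent.P195
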