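import Mathlib
import Vale.Agent.Lib.P195.Defs
import Vale.Agent.Lib.P195.Core

universe u v w

open CategoryTheory CategoryTheory.Abelian
open scoped ModuleCat.Algebra

namespace Vale.Agent.P195

variable {k : Type w} [CommRing k] {R : Type u} [Ring R] [Algebra k R]

instance finite_hom [IsNoetherianRing k] [Module.Finite k R] (M N : ModuleCat.{u} R)
    [Module.Finite R M] [Module.Finite R N] : Module.Finite k (M ⟶ N) := by
  have h1 : Module.Finite k M := Module.Finite.trans R M
  have h2 : Module.Finite k N := Module.Finite.trans R N
  have h3 : Module.Finite k (M →ₗ[k] N) := inferInstance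
  let F : (M ⟶ N) →ₗ[k] (M →ₗ[k] N) :=
    { toFun := fun f => f.hom.restrictScalars k
      map_add' := fun _ _ => rfl
      map_smul' := fun _ _ => rfl }
  refine Module.Finite.of_injective F ?_
  intro f g h
  apply ModuleCat.hom_ext
  apply LinearMap.ext
  intro x
  exact LinearMap.congr_fun h x

lemma finite_ext [IsNoetherianRing k] [Module.Finite k R] (M N : ModuleCat.{u} R)
    [Module.Finite R M] [Module.Finite R N] (i : ℕ) : Module.Finite k (Ext M N i) := by
  induction i generalizing M with
  | zero => exact Module.Finite.equiv (Ext.linearEquiv₀ (R := k)).symm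
  | succ n ih =>
    have : IsNoetherianRing R := IsNoetherianRing.of_finite k R
    obtain ⟨m, f, hf⟩ := Module.Finite.exists_fin' R M
    let exac := LinearMap.shortExact_shortComplexKer hf
    have := ih (f.shortComplexKer.X₁)
    refine Module.Finite.of_surjective (exac.extClass.precompOfLinear k N (add_comm 1 n)) ?_
    exact precomp_extClass_surjective_of_projective_X₂ N exac n

end Vale.Agent.P195
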