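import Mathlib
import Vale.Agent.Lib.P195.Defs
import Vale.Agent.Lib.P195.Core
import Vale.Agent.Lib.P195.Length

universe u v w

open CategoryTheory CategoryTheory.Abelian
open scoped ModuleCat.Algebra

namespace Vale.Agent.P195

variable {k : Type w} [CommRing k] {R : Type u} [Ring R] [Algebra k R]

section sum

variable {n : ℕ} {W : Fin n → ModuleCat.{u} R} {Y : ModuleCat.{u} R}
  (e : Y ≃ₗ[R] ((i : Fin n) → W i))

/-- projection -/
noncomputable def prj (i : Fin n) : Y ⟶ W i :=
  ModuleCat.ofHom ((LinearMap.proj i).comp e.toLinearMap)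

/-- injection -/
noncomputable def inj (i : Fin n) : W i ⟶ Y :=
  ModuleCat.ofHom (e.symm.toLinearMap.comp (LinearMap.single R (fun i => (W i : Type u)) i))

lemma inj_prj_same (i : Fin n) : inj e i ≫ prj e i = 𝟙 (W i) := by
  apply ModuleCat.hom_ext
  apply LinearMap.ext
  intro x
  simp [inj, prj]

lemma inj_prj_ne {i j : Fin n} (h : i ≠ j) : inj e i ≫ prj e j = 0 := by
  apply ModuleCat.hom_ext
  apply LinearMap.ext
  intro x
  simp [inj, prj, Pi.single_eq_of_ne h.symm]

lemma sum_prj_inj : ∑ i, prj e i ≫ inj e i = 𝟙 Y := by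
  apply ModuleCat.hom_ext
  rw [ModuleCat.hom_sum]
  apply LinearMap.ext
  intro y
  rw [LinearMap.sum_apply]
  apply e.injective
  rw [map_sum]
  have : ∀ i : Fin n, e ((ModuleCat.Hom.hom (prj e i ≫ inj e i)) y) = Pi.single i (e y i) := by
    intro i
    simp [inj, prj]
  rw [Finset.sum_congr rfl (fun i _ => this i)]
  exact Finset.univ_sum_single (e y)

/-- `Ext M Y i` for a finite direct sum `Y`. -/
noncomputable def extPi (M : ModuleCat.{u} R) (i : ℕ) :
    Ext M Y i →ₗ[k] ((j : Fin n) → Ext M (W j) i) :=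
  LinearMap.pi fun j => (Ext.mk₀ (prj e j)).postcompOfLinear k M (add_zero i)

lemma extPi_apply (M : ModuleCat.{u} R) (i : ℕ) (x : Ext M Y i) (j : Fin n) :
    extPi (k := k) e M i x j = x.comp (Ext.mk₀ (prj e j)) (add_zero i) := rfl

lemma extPi_bijective (M : ModuleCat.{u} R) (i : ℕ) :
    Function.Bijective (extPi (k := k) e M i) := by
  constructor
  · rw [← LinearMap.ker_eq_bot, LinearMap.ker_eq_bot']
    intro x hx
    rw [← Ext.comp_mk₀_id x, ← sum_prj_inj e, Ext.mk₀_sum, Ext.comp_sum]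
    apply Finset.sum_eq_zero
    intro j _
    have hj : x.comp (Ext.mk₀ (prj e j)) (add_zero i) = 0 := by
      rw [← extPi_apply (k := k) e M i x j, hx]; rfl
    rw [← Ext.mk₀_comp_mk₀, ← Ext.comp_assoc_of_third_deg_zero, hj, Ext.zero_comp]
  · intro y
    refine ⟨∑ j, (y j).comp (Ext.mk₀ (inj e j)) (add_zero i), ?_⟩
    funext j
    rw [extPi_apply, Ext.sum_comp, Finset.sum_eq_single j]
    · rw [Ext.comp_assoc_of_third_deg_zero, Ext.mk₀_comp_mk₀, inj_prj_same, Ext.comp_mk₀_id]
    · intro b _ hb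
      rw [Ext.comp_assoc_of_third_deg_zero, Ext.mk₀_comp_mk₀, inj_prj_ne e hb, Ext.mk₀_zero,
        Ext.comp_zero]
    · intro h
      exact absurd (Finset.mem_univ j) h

end sum

/-- The length of `Ext M Y i` over the base ring, as an integer. -/
noncomputable def el (k : Type w) [CommRing k] [Algebra k R] (M Y : ModuleCat.{u} R) (i : ℕ) : ℤ :=
  ((Module.length k (Ext M Y i)).toNat : ℤ)

lemma length_ne_top [IsArtinianRing k] [Module.Finite k R] (M N : ModuleCat.{u} R)
    [Module.Finite R M] [Module.Finite R N] (i : ℕ) : Module.length k (Ext M N i) ≠ ⊤ := by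
  have := finite_ext (k := k) M N i
  exact Module.length_ne_top

lemma el_sum [IsArtinianRing k] [Module.Finite k R] (M Y : ModuleCat.{u} R) {n : ℕ}
    {W : Fin n → ModuleCat.{u} R} (e : Y ≃ₗ[R] ((i : Fin n) → W i)) [Module.Finite R M]
    (hW : ∀ i, Module.Finite R (W i)) (i : ℕ) :
    el k M Y i = ∑ j, el k M (W j) i := by
  have h1 : Module.length k (Ext M Y i) = ∑ j, Module.length k (Ext M (W j) i) := by
    rw [(LinearEquiv.ofBijective _ (extPi_bijective (k := k) e M i)).length_eq,
      Module.length_pi_of_fintype]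
  unfold el
  rw [h1, ENat.toNat_sum (fun j _ => length_ne_top M (W j) i), Nat.cast_sum]

/-- the counting vector -/
def cnt {n r : ℕ} (σ : Fin n → Fin r) (j : Fin r) : ℤ := (Finset.univ.filter (fun i => σ i = j)).card

lemma el_sum_cnt [IsArtinianRing k] [Module.Finite k R] (M Y : ModuleCat.{u} R) {n r : ℕ}
    {V : Fin r → ModuleCat.{u} R} (σ : Fin n → Fin r) (e : Y ≃ₗ[R] ((i : Fin n) → V (σ i)))
    [Module.Finite R M] (hV : ∀ i, Module.Finite R (V i)) (i : ℕ) :
    el k M Y i = ∑ j, cnt σ j * el k M (V j) i := by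
  rw [el_sum (k := k) M Y e (fun _ => hV _)]
  unfold cnt
  have : ∀ j : Fin r, ((Finset.univ.filter (fun i => σ i = j)).card : ℤ) * el k M (V j) i =
      ∑ i' ∈ Finset.univ.filter (fun i => σ i = j), el k M (V (σ i')) i := by
    intro j
    rw [Finset.sum_congr rfl (g := fun _ => el k M (V j) i)]
    · rw [Finset.sum_const, nsmul_eq_mul]
    · intro x hx
      rw [(Finset.mem_filter.mp hx).2]
  rw [Finset.sum_congr rfl (fun j _ => this j)]
  exact (Finset.sum_fiberwise (Finset.univ) σ (fun i' => el k M (V (σ i')) i)).symm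

section exact

variable {M : ModuleCat.{u} R} {S : ShortComplex (ModuleCat.{u} R)} (hS : S.ShortExact)

include hS in
lemma el_eq_of_vanish (i : ℕ)
    (h1 : ∀ x : Ext M S.X₃ i, x = 0) (h2 : ∀ x : Ext M S.X₃ (i + 1), x = 0) :
    el k M S.X₁ (i + 1) = el k M S.X₂ (i + 1) := by
  let φ : Ext M S.X₁ (i + 1) →ₗ[k] Ext M S.X₂ (i + 1) :=
    (Ext.mk₀ S.f).postcompOfLinear k M (add_zero _)
  have hφ : Function.Bijective φ := by
    constructor
    · rw [← LinearMap.ker_eq_bot, LinearMap.ker_eq_bot']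
      intro x hx
      obtain ⟨y, rfl⟩ := Ext.covariant_sequence_exact₁ M hS x hx rfl
      rw [h1 y, Ext.zero_comp]
    · intro y
      exact Ext.covariant_sequence_exact₂ M hS y (h2 _)
  unfold el
  rw [(LinearEquiv.ofBijective φ hφ).length_eq]

include hS in
lemma el_lt_of_ne_zero [IsArtinianRing k] [Module.Finite k R] [Module.Finite R M]
    [Module.Finite R S.X₁] [Module.Finite R S.X₂] (i : ℕ)
    (T : Ext M S.X₃ i) (hT : T.comp hS.extClass rfl ≠ 0)
    (h2 : ∀ x : Ext M S.X₃ (i + 1), x = 0) :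
    el k M S.X₂ (i + 1) < el k M S.X₁ (i + 1) := by
  let φ : Ext M S.X₁ (i + 1) →ₗ[k] Ext M S.X₂ (i + 1) :=
    (Ext.mk₀ S.f).postcompOfLinear k M (add_zero _)
  have hsurj : Function.Surjective φ := by
    intro y
    exact Ext.covariant_sequence_exact₂ M hS y (h2 _)
  have hker : (⟨T.comp hS.extClass rfl, by
      change (T.comp hS.extClass rfl).comp (Ext.mk₀ S.f) (add_zero _) = 0
      rw [Ext.comp_assoc_of_third_deg_zero, ShortComplex.ShortExact.extClass_comp, Ext.comp_zero]⟩ :
      LinearMap.ker φ) ≠ 0 := by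
    intro h
    exact hT (congrArg Subtype.val h)
  have hnt : Nontrivial (LinearMap.ker φ) := ⟨_, _, hker⟩
  have hlen := Module.length_eq_add_of_exact (R := k) (LinearMap.ker φ).subtype φ
    (Submodule.subtype_injective _) hsurj (LinearMap.exact_subtype_ker_map φ)
  have hpos : 0 < Module.length k (LinearMap.ker φ) := Module.length_pos
  have ht1 := length_ne_top (k := k) M S.X₁ (i + 1)
  have ht2 := length_ne_top (k := k) M S.X₂ (i + 1)
  have ht3 : Module.length k (LinearMap.ker φ) ≠ ⊤ := by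
    intro h
    rw [h, top_add] at hlen
    exact ht1 hlen
  unfold el
  rw [hlen, ENat.toNat_add ht3 ht2]
  have : 0 < (Module.length k (LinearMap.ker φ)).toNat := by
    rw [Nat.pos_iff_ne_zero]
    intro h
    rw [ENat.toNat_eq_zero] at h
    rcases h with h | h
    · exact hpos.ne' h
    · exact ht3 h
  push_cast
  omega

end exact

end Vale.Agent.P195
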