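import Mathlib
import Vale.Agent.Lib.P195.Defs
import Vale.Agent.Lib.P195.Core
import Vale.Agent.Lib.P195.Length
import Vale.Agent.Lib.P195.Sum

universe u v w

open CategoryTheory CategoryTheory.Abelian
open scoped ModuleCat.Algebra

namespace Vale.Agent.P195

variable {R : Type u} [Ring R]

/-- a two-step presentation of `X` by finite sums of members of `V` -/
def TwoTerm {ι : Type} (V : ι → ModuleCat.{u} R) (X : ModuleCat.{u} R) : Prop :=
  ∃ (B A : ModuleCat.{u} R) (f : B →ₗ[R] A) (g : A →ₗ[R] X),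
    IsFiniteSumOf V B ∧ IsFiniteSumOf V A ∧
    Function.Injective f ∧ Function.Exact f g ∧ Function.Surjective g

lemma finite_of_isFiniteSumOf {ι : Type} {V : ι → ModuleCat.{u} R}
    (hV : ∀ i, Module.Finite R (V i)) {Y : ModuleCat.{u} R} (h : IsFiniteSumOf V Y) :
    Module.Finite R Y := by
  obtain ⟨n, σ, ⟨e⟩⟩ := h
  have : ∀ i, Module.Finite R (V (σ i)) := fun i => hV _
  exact Module.Finite.equiv e.symm

/-- The linear algebra at the heart of the argument: in a free module of finite rank there is no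
infinite family of vectors which is triangular with respect to a sequence of functionals. -/
lemma no_triangular {r : ℕ} (p : ℕ → (Fin r → ℤ) → Prop)
    (φ : ℕ → (Fin r → ℤ) →ₗ[ℤ] ℤ)
    (h1 : ∀ l d, p l d → φ (l + 1) d ≠ 0)
    (h2 : ∀ l d, p l d → ∀ i, l + 1 < i → φ i d = 0)
    (hinf : ∀ N, ∃ l, N ≤ l ∧ ∃ d, p l d) : False := by
  let D : ℕ →o Submodule ℤ (Fin r → ℤ) :=
    { toFun := fun m => Submodule.span ℤ {d | ∃ l, l < m ∧ p l d}
      monotone' := by
        intro a b hab
        apply Submodule.span_mono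
        rintro d ⟨l, hl, hd⟩
        exact ⟨l, lt_of_lt_of_le hl hab, hd⟩ }
  obtain ⟨N, hN⟩ := monotone_stabilizes_iff_noetherian.mpr
    (inferInstance : IsNoetherian ℤ (Fin r → ℤ)) D
  obtain ⟨l, hl, d, hd⟩ := hinf N
  have hmem : d ∈ D (l + 1) := Submodule.subset_span ⟨l, Nat.lt_succ_self l, hd⟩
  rw [← hN (l + 1) (by omega), hN l hl] at hmem
  apply h1 l d hd
  have hle : D l ≤ LinearMap.ker (φ (l + 1)) := by
    apply Submodule.span_le.mpr
    rintro d' ⟨l', hl', hd'⟩
    exact h2 l' d' hd' (l + 1) (by omega)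
  exact hle hmem

section main


/-- The key theorem: a module with the Auslander-Reiten condition, infinitely many of whose
syzygies have a two-term presentation by sums of members of a fixed finite family, is
projective. -/
theorem projective_of_twoTerm (k : Type w) [CommRing k] [IsArtinianRing k] [Algebra k R]
    [Module.Finite k R] {r : ℕ} (V : Fin r → ModuleCat.{u} R)
    (hV : ∀ i, Module.Finite R (V i)) (M : ModuleCat.{u} R) [Module.Finite R M]
    (hMM : ∀ i, 1 ≤ i → ∀ x : Ext M M i, x = 0)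
    (hMR : ∀ i, 1 ≤ i → ∀ x : Ext M (ModuleCat.of R R) i, x = 0)
    (hinf : ∀ N, ∃ l, N ≤ l ∧ ∃ X : ModuleCat.{u} R, IsSyzygy M l X ∧ TwoTerm V X) :
    Module.Projective R M := by
  by_contra hM
  -- the functionals
  let φ : ℕ → (Fin r → ℤ) →ₗ[ℤ] ℤ := fun i =>
    { toFun := fun d => ∑ j, d j * el k M (V j) i
      map_add' := by
        intro a b
        simp only [Pi.add_apply, add_mul, Finset.sum_add_distrib]
      map_smul' := by
        intro c a
        simp only [Pi.smul_apply, smul_eq_mul, mul_assoc, Finset.mul_sum, RingHom.id_apply] }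
  -- the non split case
  let p : ℕ → (Fin r → ℤ) → Prop := fun l d => φ (l + 1) d ≠ 0 ∧ ∀ i, l + 1 < i → φ i d = 0
  have hp : ¬ ∀ N, ∃ l, N ≤ l ∧ ∃ d, p l d := fun h =>
    no_triangular p φ (fun _ _ h => h.1) (fun _ _ h => h.2) h
  push Not at hp
  obtain ⟨N₀, hN₀⟩ := hp
  -- the chain of submodules in the split case
  let Λ := (q : Fin r × Fin r) → (V q.1 ⟶ V q.2)
  have hΛ : Module.Finite k Λ := by
    have : ∀ q : Fin r × Fin r, Module.Finite k (V q.1 ⟶ V q.2) := fun q => by
      have := hV q.1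
      have := hV q.2
      exact finite_hom _ _
    exact Module.Finite.pi
  let U : ℕ →o Submodule k Λ :=
    { toFun := fun m =>
        { carrier := {x | ∀ n, m ≤ n → ∀ q : Fin r × Fin r, ∀ y : Ext M (V q.1) n,
            y.comp (Ext.mk₀ (x q)) (add_zero n) = 0}
          add_mem' := by
            intro a b ha hb n hn q y
            rw [Pi.add_apply, Ext.mk₀_add, Ext.comp_add, ha n hn q y, hb n hn q y, add_zero]
          zero_mem' := by
            intro n hn q y
            rw [Pi.zero_apply, Ext.mk₀_zero, Ext.comp_zero]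
          smul_mem' := by
            intro c a ha n hn q y
            rw [Pi.smul_apply, Ext.mk₀_smul, Ext.comp_smul, ha n hn q y, smul_zero] }
      monotone' := by
        intro a b hab x hx n hn
        exact hx n (le_trans hab hn) }
  obtain ⟨N₁, hN₁⟩ := monotone_stabilizes_iff_noetherian.mpr
    (inferInstance : IsNoetherian k Λ) U
  -- choose a large index
  obtain ⟨l, hl, X, hX, B, A, f, g, hB, hA, hf, hfg, hg⟩ := hinf (N₀ + N₁)
  have hBf := finite_of_isFiniteSumOf hV hB
  have hAf := finite_of_isFiniteSumOf hV hA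
  obtain ⟨hvan, T, hT0, -, hTs⟩ := syzygy_class hMM hMR hM l X hX
  obtain ⟨w, hS⟩ := exists_shortExact f g hf hfg hg
  obtain ⟨nA, σA, ⟨eA⟩⟩ := hA
  obtain ⟨nB, σB, ⟨eB⟩⟩ := hB
  by_cases hns : T.comp hS.extClass rfl = 0
  · -- split case
    obtain ⟨τ, hτ⟩ := Ext.covariant_sequence_exact₃ M hS T rfl hns
    obtain ⟨s', hs'⟩ := hTs 0 l rfl A τ
    obtain ⟨s, rfl⟩ := Ext.homEquiv₀.symm.surjective s'
    change T.comp (Ext.mk₀ s) _ = τ at hs'
    let g' : A ⟶ X := ModuleCat.ofHom g
    have hτ' : τ.comp (Ext.mk₀ g') (add_zero l) = T := hτ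
    -- the endomorphisms through X
    have key : ∃ i j : Fin nA, ∃ y : Ext M (V (σA i)) l,
        y.comp (Ext.mk₀ ((inj eA i ≫ g') ≫ (s ≫ prj eA j))) (add_zero l) ≠ 0 := by
      by_contra hcon
      push Not at hcon
      apply hT0
      have hT1 : T = (T.comp (Ext.mk₀ (s ≫ g')) (add_zero l)) := by
        rw [← Ext.mk₀_comp_mk₀, ← Ext.comp_assoc_of_third_deg_zero, hs', hτ']
      have hT2 : T = ((T.comp (Ext.mk₀ s) (add_zero l)).comp (Ext.mk₀ (g' ≫ s))
          (add_zero l)).comp (Ext.mk₀ g') (add_zero l) := by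
        rw [Ext.comp_assoc_of_third_deg_zero, Ext.comp_assoc_of_third_deg_zero,
          Ext.mk₀_comp_mk₀, Ext.mk₀_comp_mk₀]
        have : s ≫ (g' ≫ s) ≫ g' = (s ≫ g') ≫ (s ≫ g') := by simp only [Category.assoc]
        rw [this, ← Ext.mk₀_comp_mk₀, ← Ext.comp_assoc_of_third_deg_zero, ← hT1, ← hT1]
      rw [hT2]
      have hz : (T.comp (Ext.mk₀ s) (add_zero l)).comp (Ext.mk₀ (g' ≫ s)) (add_zero l) = 0 := by
        have h1 : g' ≫ s = ∑ i, ∑ j, prj eA i ≫ ((inj eA i ≫ g') ≫ (s ≫ prj eA j)) ≫ inj eA j := by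
          calc g' ≫ s = (𝟙 A ≫ (g' ≫ s)) ≫ 𝟙 A := by simp
            _ = ((∑ i, prj eA i ≫ inj eA i) ≫ (g' ≫ s)) ≫ (∑ j, prj eA j ≫ inj eA j) := by
                rw [sum_prj_inj]
            _ = _ := by
                simp only [Preadditive.sum_comp, Preadditive.comp_sum, Category.assoc]
                rw [Finset.sum_comm]
        rw [h1, Ext.mk₀_sum, Ext.comp_sum]
        apply Finset.sum_eq_zero
        intro i _
        rw [Ext.mk₀_sum, Ext.comp_sum]
        apply Finset.sum_eq_zero
        intro j _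
        rw [← Ext.mk₀_comp_mk₀, ← Ext.mk₀_comp_mk₀ _ (inj eA j),
          ← Ext.comp_assoc_of_third_deg_zero, ← Ext.comp_assoc_of_third_deg_zero,
          hcon i j, Ext.zero_comp]
      rw [hz, Ext.zero_comp]
    obtain ⟨i, j, y, hy⟩ := key
    let x : Λ := Pi.single (σA i, σA j) ((inj eA i ≫ g') ≫ (s ≫ prj eA j))
    have hx1 : x ∈ U (l + 1) := by
      intro n hn q y'
      by_cases hq : q = (σA i, σA j)
      · subst hq
        have : x (σA i, σA j) = ((inj eA i ≫ g') ≫ (s ≫ prj eA j)) := Pi.single_eq_same _ _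
        rw [this, ← Ext.mk₀_comp_mk₀, ← Ext.comp_assoc_of_third_deg_zero,
          hvan n (by omega) (y'.comp _ _), Ext.zero_comp]
      · have : x q = 0 := Pi.single_eq_of_ne hq _
        rw [this, Ext.mk₀_zero, Ext.comp_zero]
    rw [← hN₁ (l + 1) (by omega), hN₁ l (by omega)] at hx1
    apply hy
    have := hx1 l le_rfl (σA i, σA j) y
    have hxx : x (σA i, σA j) = ((inj eA i ≫ g') ≫ (s ≫ prj eA j)) := Pi.single_eq_same _ _
    rw [hxx] at this
    exact this
  · -- non split case
    have hXf : Module.Finite R X := Module.Finite.of_surjective g hg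
    apply hN₀ l (by omega) (fun j => cnt σA j - cnt σB j)
    have hφ : ∀ i, φ i (fun j => cnt σA j - cnt σB j) = el k M A i - el k M B i := by
      intro i
      rw [el_sum_cnt (k := k) M A σA eA hV i, el_sum_cnt (k := k) M B σB eB hV i,
        ← Finset.sum_sub_distrib]
      change ∑ j, (cnt σA j - cnt σB j) * el k M (V j) i = _
      apply Finset.sum_congr rfl
      intro j _
      ring
    constructor
    · rw [hφ]
      have := el_lt_of_ne_zero (k := k) hS l T hns (hvan (l + 1) (by omega))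
      change el k M A (l + 1) < el k M B (l + 1) at this
      omega
    · intro i hi
      rw [hφ]
      obtain ⟨i', rfl⟩ : ∃ i', i = i' + 1 := ⟨i - 1, by omega⟩
      have := el_eq_of_vanish (k := k) hS i' (hvan i' (by omega)) (hvan (i' + 1) (by omega))
      change el k M B (i' + 1) = el k M A (i' + 1) at this
      omega

end main

end Vale.Agent.P195
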