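import Mathlib
import Vale.Agent.Lib.P195.Core
import Vale.Agent.Lib.P195.Sum
import Vale.Agent.Lib.P195.Cover
import Vale.Agent.Lib.P195.Defs

/-!
The Auslander-Reiten conjecture for algebras with radical cube zero, with vanishing of `Ext`
only in a finite range of degrees.
-/

universe u v w

open CategoryTheory CategoryTheory.Abelian
open scoped ModuleCat.Algebra

namespace Vale.Agent.P195

variable {R : Type u} [Ring R]

/-- Minimal syzygies, their classes and the vanishing in a finite range. -/
lemma min_syzygy_class [IsArtinianRing R] [IsNoetherianRing R]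
    (hJ : ∀ a ∈ Ring.jacobson R, ∀ b ∈ Ring.jacobson R, ∀ c ∈ Ring.jacobson R, a * b * c = 0)
    {M : ModuleCat.{u} R} [Module.Finite R M] (N : ℕ)
    (hMM : ∀ i, 1 ≤ i → i + 1 ≤ N → ∀ x : Ext M M i, x = 0)
    (hMR : ∀ i, 1 ≤ i → i ≤ N → ∀ x : Ext M (ModuleCat.of R R) i, x = 0)
    (hM : ¬ Module.Projective R M) (l : ℕ) (hl : l + 1 ≤ N) :
    ∃ X : ModuleCat.{u} R, Module.Finite R X ∧
      (1 ≤ l → ∀ a ∈ Ring.jacobson R, ∀ b ∈ Ring.jacobson R, ∀ x : X, a • b • x = 0) ∧
      (∀ i, l < i → (l = 0 → i + 1 ≤ N) → i ≤ N → ∀ x : Ext M X i, x = 0) ∧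
      (l = 0 → X = M) ∧
      ∃ T : Ext M X l, T ≠ 0 ∧
        (∀ (m n : ℕ) (h : l + m = n), 1 ≤ m → ∀ (Z : ModuleCat.{u} R) (y : Ext X Z m),
          T.comp y h = 0 → y = 0) ∧
        (1 ≤ l → ∀ (B : ModuleCat.{u} R) (q : X ⟶ B),
          (∀ a ∈ Ring.jacobson R, ∀ b : B, a • b = 0) →
          T.comp (Ext.mk₀ q) (add_zero l) = 0 → q = 0) := by
  induction l with
  | zero =>
    refine ⟨M, inferInstance, fun h => absurd h (by omega), ?_, fun _ => rfl,
      Ext.mk₀ (𝟙 M), ?_, ?_, fun h => absurd h (by omega)⟩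
    · intro i hi hi' _ x
      exact hMM i hi (hi' rfl) x
    · intro h0
      rw [Ext.mk₀_eq_zero_iff] at h0
      apply hM
      have h2 : ∀ m : M, m = 0 := by
        intro m
        have := congrArg (fun f : M ⟶ M => f.hom m) h0
        simpa using this
      have : Subsingleton M := ⟨fun a b => by rw [h2 a, h2 b]⟩
      have : Module.Free R M := Module.Free.of_subsingleton R M
      exact Module.Projective.of_free
    · intro m n h hm Z y hy
      obtain rfl : n = m := by omega
      rwa [Ext.mk₀_id_comp] at hy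
  | succ l ih =>
    obtain ⟨Y, hYf, hYJ, hvan, hY0, T, hT0, hTinj, -⟩ := ih (by omega)
    obtain ⟨P, g, hPf, hPp, hg, hker⟩ := exists_projective_cover (R := R) Y
    let X : ModuleCat.{u} R := ModuleCat.of R (LinearMap.ker g)
    have hXf : Module.Finite R X := by
      change Module.Finite R (LinearMap.ker g)
      infer_instance
    obtain ⟨w, hS⟩ := exists_shortExact (X := X) (P := P) (Y := Y) (LinearMap.ker g).subtype g
      (Submodule.subtype_injective _) (LinearMap.exact_subtype_ker_map g) hg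
    have hP0 : ∀ i, 1 ≤ i → i ≤ N → ∀ x : Ext M P i, x = 0 := fun i hi hi' x =>
      ext_eq_zero_of_projective_right (hMR i hi hi') P x
    have hPP : Projective P := (IsProjective.iff_projective P).mp hPp
    have hinj1 : ∀ (m m' : ℕ) (h : 1 + m = m'), 1 ≤ m → ∀ (Z : ModuleCat.{u} R) (y : Ext X Z m),
        hS.extClass.comp y h = 0 → y = 0 := by
      intro m m' h hm Z y hy
      obtain ⟨x₂, rfl⟩ := Ext.contravariant_sequence_exact₁ hS Z y h hy
      have : x₂ = 0 := by
        obtain ⟨m, rfl⟩ : ∃ m₁, m = m₁ + 1 := ⟨m - 1, by omega⟩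
        exact Ext.eq_zero_of_projective x₂
      rw [this, Ext.comp_zero]
    refine ⟨X, hXf, ?_, ?_, fun h => absurd h (by omega), T.comp hS.extClass rfl, ?_, ?_, ?_⟩
    · rintro - a ha b hb ⟨x, hx⟩
      apply Subtype.ext
      change a • b • x = 0
      have hx' : x ∈ Ring.jacobson R • (⊤ : Submodule R P) := hker hx
      rw [smul_smul]
      refine Submodule.smul_induction_on (p := fun x => (a * b) • x = 0) hx' ?_ ?_
      · intro d hd p _
        rw [smul_smul, hJ a ha b hb d hd, zero_smul]
      · intro x y hx hy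
        rw [smul_add, hx, hy, add_zero]
    · intro i hi _ hiN x
      obtain ⟨j, rfl⟩ : ∃ j, i = j + 1 := ⟨i - 1, by omega⟩
      obtain ⟨x₃, rfl⟩ := Ext.covariant_sequence_exact₁ M hS x (hP0 _ (by omega) hiN _) rfl
      have : x₃ = 0 := hvan j (by omega) (fun _ => by omega) (by omega) x₃
      rw [this, Ext.zero_comp]
    · intro h0
      rcases Nat.eq_zero_or_pos l with rfl | hl0
      · have h1 : hS.extClass = 0 := hTinj 1 _ rfl le_rfl _ _ h0
        have h2 : Module.Projective R Y := projective_of_extClass_eq_zero hS hPp h1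
        obtain rfl := hY0 rfl
        exact hM h2
      · obtain ⟨x₂, hx₂⟩ := Ext.covariant_sequence_exact₃ M hS T rfl h0
        apply hT0
        have h3 : x₂ = 0 := hP0 l hl0 (by omega) x₂
        rw [← hx₂, h3, Ext.zero_comp]
    · intro m n h hm Z y hy
      rw [Ext.comp_assoc (a₁₂ := l + 1) (a₂₃ := 1 + m) _ _ _ rfl rfl (by omega)] at hy
      exact hinj1 m _ rfl hm Z y (hTinj (1 + m) _ (by omega) (by omega) Z _ hy)
    · intro _ B q hB hq
      rw [Ext.comp_assoc (a₁₂ := l + 1) (a₂₃ := 1) _ _ _ rfl (by omega) (by omega)] at hq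
      have h1 : hS.extClass.comp (Ext.mk₀ q) (add_zero 1) = 0 :=
        hTinj 1 _ rfl le_rfl B _ hq
      obtain ⟨x₂, hx₂⟩ := Ext.contravariant_sequence_exact₁ hS B (Ext.mk₀ q) (add_zero 1) h1
      obtain ⟨h, rfl⟩ := Ext.homEquiv₀.symm.surjective x₂
      change (Ext.mk₀ _).comp (Ext.mk₀ h) _ = _ at hx₂
      rw [Ext.mk₀_comp_mk₀] at hx₂
      have hq' := (Ext.mk₀_bijective (X := X) (Y := B)).1 hx₂
      apply ModuleCat.hom_ext
      apply LinearMap.ext
      intro x
      have hx : (x : P) ∈ Ring.jacobson R • (⊤ : Submodule R P) := hker x.2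
      have h5 : q.hom x = h.hom (x : P) := by
        rw [← hq']
        rfl
      have h6 : h.hom (x : P) = 0 := by
        refine Submodule.smul_induction_on (p := fun x => h.hom x = 0) hx ?_ ?_
        · intro d hd p _
          rw [map_smul, hB d hd]
        · intro x y hx hy
          rw [map_add, hx, hy, add_zero]
      rw [h5, h6]
      rfl

/-- A finitely generated semisimple module is a finite sum of members of a complete list of
simple modules. -/
lemma isFiniteSumOf_of_semisimple {n : ℕ} {S : Fin n → ModuleCat.{u} R}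
    (hS : ∀ (T : Type u) [AddCommGroup T] [Module R T], IsSimpleModule R T →
      ∃ i, Nonempty (T ≃ₗ[R] S i)) (Y : ModuleCat.{u} R) [Module.Finite R Y]
    [IsSemisimpleModule R Y] : IsFiniteSumOf S Y := by
  obtain ⟨m, T, f, hT⟩ := IsSemisimpleModule.exists_linearEquiv_fin_dfinsupp R Y
  choose σ hσ using fun j => hS (T j) (hT j)
  refine ⟨m, σ, ⟨?_⟩⟩
  have e' : (Π₀ j : Fin m, T j) ≃ₗ[R] ((j : Fin m) → T j) :=
    DFinsupp.linearEquivFunOnFintype
  have e'' : ((j : Fin m) → T j) ≃ₗ[R] ((j : Fin m) → S (σ j)) :=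
    LinearEquiv.piCongrRight fun j => (hσ j).some
  exact (f.trans e').trans e''

lemma isSemisimple_of_kill [IsArtinianRing R] (Y : Type u) [AddCommGroup Y] [Module R Y]
    (h : ∀ a ∈ Ring.jacobson R, ∀ y : Y, a • y = 0) : IsSemisimpleModule R Y := by
  have h : Module.IsTorsionBySet R Y (Ring.jacobson R) := fun y a => h a a.2 y
  let _ := h.module
  exact (h.semilinearMap.isSemisimpleModule_iff_of_bijective Function.bijective_id).2
      inferInstance

section

variable {k : Type w} [CommRing k] [Algebra k R]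
variable {M : ModuleCat.{u} R} {S : ShortComplex (ModuleCat.{u} R)} (hS : S.ShortExact)

include hS in
lemma el_conn_eq (i : ℕ)
    (h1 : ∀ x : Ext M S.X₂ i, x = 0) (h2 : ∀ x : Ext M S.X₂ (i + 1), x = 0) :
    el k M S.X₃ i = el k M S.X₁ (i + 1) := by
  let φ : Ext M S.X₃ i →ₗ[k] Ext M S.X₁ (i + 1) := hS.extClass.postcompOfLinear k M rfl
  have hφ : Function.Bijective φ := by
    constructor
    · rw [← LinearMap.ker_eq_bot, LinearMap.ker_eq_bot']
      intro x hx
      obtain ⟨y, rfl⟩ := Ext.covariant_sequence_exact₃ M hS x rfl hx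
      rw [h1 y, Ext.zero_comp]
    · intro y
      exact Ext.covariant_sequence_exact₁ M hS y (h2 _) rfl
  unfold el
  rw [(LinearEquiv.ofBijective φ hφ).length_eq]

include hS in
lemma el_conn_lt [IsArtinianRing k] [Module.Finite k R] [Module.Finite R M]
    [Module.Finite R S.X₁] [Module.Finite R S.X₃] (i : ℕ)
    (T : Ext M S.X₂ i) (hT : T.comp (Ext.mk₀ S.g) (add_zero i) ≠ 0)
    (h2 : ∀ x : Ext M S.X₂ (i + 1), x = 0) :
    el k M S.X₁ (i + 1) < el k M S.X₃ i := by
  let φ : Ext M S.X₃ i →ₗ[k] Ext M S.X₁ (i + 1) := hS.extClass.postcompOfLinear k M rfl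
  have hsurj : Function.Surjective φ := by
    intro y
    exact Ext.covariant_sequence_exact₁ M hS y (h2 _) rfl
  have hker : (⟨T.comp (Ext.mk₀ S.g) (add_zero i), by
      change (T.comp (Ext.mk₀ S.g) (add_zero i)).comp hS.extClass rfl = 0
      rw [Ext.comp_assoc_of_second_deg_zero, ShortComplex.ShortExact.comp_extClass,
        Ext.comp_zero]⟩ : LinearMap.ker φ) ≠ 0 := by
    intro h
    exact hT (congrArg Subtype.val h)
  have hnt : Nontrivial (LinearMap.ker φ) := ⟨_, _, hker⟩
  have hlen := Module.length_eq_add_of_exact (R := k) (LinearMap.ker φ).subtype φ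
    (Submodule.subtype_injective _) hsurj (LinearMap.exact_subtype_ker_map φ)
  have hpos : 0 < Module.length k (LinearMap.ker φ) := Module.length_pos
  have ht1 := length_ne_top (k := k) M S.X₃ i
  have ht2 := length_ne_top (k := k) M S.X₁ (i + 1)
  have ht3 : Module.length k (LinearMap.ker φ) ≠ ⊤ := by
    intro h
    rw [h, top_add] at hlen
    exact ht1 hlen
  unfold el
  rw [hlen, ENat.toNat_add ht3 ht2]
  have : 0 < (Module.length k (LinearMap.ker φ)).toNat := by
    rw [Nat.pos_iff_ne_zero]
    intro h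
    rw [ENat.toNat_eq_zero] at h
    rcases h with h | h
    · exact hpos.ne' h
    · exact ht3 h
  push_cast
  omega

end

/-- The theorem with a finite range. -/
theorem projective_of_radCubeZero_range (k : Type w) [CommRing k] [IsArtinianRing k] [Algebra k R]
    [Module.Finite k R]
    (hJ : ∀ a ∈ Ring.jacobson R, ∀ b ∈ Ring.jacobson R, ∀ c ∈ Ring.jacobson R, a * b * c = 0)
    {n : ℕ} (S : Fin n → ModuleCat.{u} R) (hSf : ∀ i, Module.Finite R (S i))
    (hS : ∀ (T : Type u) [AddCommGroup T] [Module R T], IsSimpleModule R T →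
      ∃ i, Nonempty (T ≃ₗ[R] S i))
    (M : ModuleCat.{u} R) [Module.Finite R M]
    (hMM : ∀ i, 1 ≤ i → i ≤ 2 * n + 1 → ∀ x : Ext M M i, x = 0)
    (hMR : ∀ i, 1 ≤ i → i ≤ 2 * n + 2 → ∀ x : Ext M (ModuleCat.of R R) i, x = 0) :
    Module.Projective R M := by
  by_contra hM
  have hArt : IsArtinianRing R := IsArtinianRing.of_finite k R
  have hNoe : IsNoetherianRing R := IsNoetherianRing.of_finite k R
  -- the functionals
  let ψ : ℕ → ((Fin n → ℚ) × (Fin n → ℚ)) →ₗ[ℚ] ℚ := fun i =>
    { toFun := fun d => (∑ j, d.1 j * (el k M (S j) i : ℚ)) -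
        ∑ j, d.2 j * (el k M (S j) (i + 1) : ℚ)
      map_add' := by
        intro a b
        simp only [Prod.fst_add, Prod.snd_add, Pi.add_apply, add_mul, Finset.sum_add_distrib]
        ring
      map_smul' := by
        intro c a
        simp only [Prod.smul_fst, Prod.smul_snd, Pi.smul_apply, smul_eq_mul, mul_assoc,
          ← Finset.mul_sum, RingHom.id_apply, mul_sub] }
  have key : ∀ l : Fin (2 * n + 1), ∃ d : (Fin n → ℚ) × (Fin n → ℚ),
      ψ (l + 1) d ≠ 0 ∧ ∀ i : ℕ, (l : ℕ) + 1 < i → i ≤ 2 * n + 1 → ψ i d = 0 := by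
    rintro ⟨l, hl⟩
    obtain ⟨X, hXf, hXJ, hvan, -, T, hT0, hTinj, hTq⟩ := min_syzygy_class hJ (2 * n + 2)
      (fun i hi hi' => hMM i hi (by omega)) (fun i hi hi' => hMR i hi hi') hM (l + 1) (by omega)
    let A : Submodule R X := Ring.jacobson R • (⊤ : Submodule R X)
    have hAk : ∀ a ∈ Ring.jacobson R, ∀ y : A, a • y = 0 := by
      rintro a ha ⟨y, hy⟩
      apply Subtype.ext
      change a • y = 0
      refine Submodule.smul_induction_on (p := fun y => a • y = 0) hy ?_ ?_
      · intro c hc x _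
        exact hXJ (by omega) a ha c hc x
      · intro x y hx hy
        rw [smul_add, hx, hy, add_zero]
    have hBk : ∀ a ∈ Ring.jacobson R, ∀ y : X ⧸ A, a • y = 0 := by
      intro a ha y
      obtain ⟨y, rfl⟩ := A.mkQ_surjective y
      rw [← map_smul, Submodule.mkQ_apply, Submodule.Quotient.mk_eq_zero]
      exact Submodule.smul_mem_smul ha trivial
    have hAf : Module.Finite R A := inferInstance
    have hAs : IsSemisimpleModule R A := isSemisimple_of_kill A hAk
    have hBs : IsSemisimpleModule R (X ⧸ A) := isSemisimple_of_kill (X ⧸ A) hBk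
    let A' : ModuleCat.{u} R := ModuleCat.of R A
    let B' : ModuleCat.{u} R := ModuleCat.of R (X ⧸ A)
    have hAf' : Module.Finite R A' := hAf
    have hBf' : Module.Finite R B' := (inferInstance : Module.Finite R (X ⧸ A))
    have hAs' : IsSemisimpleModule R A' := hAs
    have hBs' : IsSemisimpleModule R B' := hBs
    obtain ⟨nA, σA, ⟨eA⟩⟩ := isFiniteSumOf_of_semisimple hS A'
    obtain ⟨nB, σB, ⟨eB⟩⟩ := isFiniteSumOf_of_semisimple hS B'
    obtain ⟨w, hSE⟩ := exists_shortExact (X := A') (P := X) (Y := B') A.subtype A.mkQ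
      (Submodule.subtype_injective _) (LinearMap.exact_subtype_mkQ A) A.mkQ_surjective
    refine ⟨(fun j => (cnt σB j : ℚ), fun j => (cnt σA j : ℚ)), ?_⟩
    have hψ : ∀ i, ψ i (fun j => (cnt σB j : ℚ), fun j => (cnt σA j : ℚ)) =
        (el k M B' i : ℚ) - (el k M A' (i + 1) : ℚ) := by
      intro i
      rw [el_sum_cnt (k := k) M A' σA eA hSf (i + 1), el_sum_cnt (k := k) M B' σB eB hSf i]
      push_cast
      rfl
    have hT1 : T.comp (Ext.mk₀ (ModuleCat.ofHom A.mkQ : X ⟶ B')) (add_zero (l + 1)) ≠ 0 := by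
      intro h0
      have h1 := hTq (by omega) B' (ModuleCat.ofHom A.mkQ) hBk h0
      have h2 : A = ⊤ := by
        rw [eq_top_iff]
        intro x _
        have := congrArg (fun f : X ⟶ B' => f.hom x) h1
        change A.mkQ x = 0 at this
        rwa [Submodule.mkQ_apply, Submodule.Quotient.mk_eq_zero] at this
      have hfg : (⊤ : Submodule R X).FG := Module.Finite.fg_top
      have h3 := hfg.eq_bot_of_le_jacobson_smul h2.ge
      apply hT0
      have h4 : (𝟙 X) = 0 := by
        apply ModuleCat.hom_ext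
        apply LinearMap.ext
        intro x
        have : x ∈ (⊤ : Submodule R X) := trivial
        rw [h3, Submodule.mem_bot] at this
        exact this
      rw [← Ext.comp_mk₀_id T, h4, Ext.mk₀_zero, Ext.comp_zero]
    constructor
    · rw [hψ]
      have := el_conn_lt (k := k) hSE (l + 1) T hT1 (hvan (l + 2) (by omega)
        (fun h => absurd h (by omega)) (by omega))
      change el k M A' (l + 1 + 1) < el k M B' (l + 1) at this
      have h' : (el k M A' (l + 1 + 1) : ℚ) < (el k M B' (l + 1) : ℚ) := by exact_mod_cast this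
      change (el k M B' (l + 1) : ℚ) - (el k M A' (l + 1 + 1) : ℚ) ≠ 0
      exact (sub_pos.mpr h').ne'
    · intro i hi hi2
      change l + 1 < i at hi
      rw [hψ]
      have := el_conn_eq (k := k) hSE i
        (hvan i (by omega) (fun h => absurd h (by omega)) (by omega))
        (hvan (i + 1) (by omega) (fun h => absurd h (by omega)) (by omega))
      change el k M B' i = el k M A' (i + 1) at this
      rw [this, sub_self]
  choose d hd1 hd2 using key
  have hli : LinearIndependent ℚ d := by
    rw [Fintype.linearIndependent_iff]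
    intro c hc
    by_contra hcon
    push Not at hcon
    -- the largest index with nonzero coefficient
    let F : Finset (Fin (2 * n + 1)) := Finset.univ.filter (fun i => c i ≠ 0)
    have hF : F.Nonempty := by
      obtain ⟨i, hi⟩ := hcon
      exact ⟨i, Finset.mem_filter.mpr ⟨Finset.mem_univ i, hi⟩⟩
    let L := F.max' hF
    have hL : c L ≠ 0 := (Finset.mem_filter.mp (F.max'_mem hF)).2
    have hL' : ∀ i, c i ≠ 0 → i ≤ L := fun i hi =>
      F.le_max' i (Finset.mem_filter.mpr ⟨Finset.mem_univ i, hi⟩)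
    have h0 := congrArg (ψ (L + 1)) hc
    rw [map_sum, map_zero, Finset.sum_eq_single L] at h0
    · rw [map_smul, smul_eq_mul] at h0
      rcases mul_eq_zero.mp h0 with h | h
      · exact hL h
      · exact hd1 L h
    · intro i _ hi
      rw [map_smul, smul_eq_mul]
      by_cases hci : c i = 0
      · rw [hci, zero_mul]
      · have hlt : i < L := lt_of_le_of_ne (hL' i hci) hi
        rw [hd2 i (L + 1) (by omega) (by omega), mul_zero]
    · intro h
      exact absurd (Finset.mem_univ L) h
  have hcard := hli.fintype_card_le_finrank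
  rw [Fintype.card_fin, Module.finrank_prod, Module.finrank_fin_fun] at hcard
  omega

end Vale.Agent.P195
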