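import Mathlib
import Vale.Agent.Lib.P195.Defs

universe u v w

open CategoryTheory

namespace Vale.Agent.P195

variable {R : Type u} [Ring R]

lemma IsSyzygy.of_equiv {M : ModuleCat.{u} R} {m : ℕ} {X Y : ModuleCat.{u} R}
    (e : X ≃ₗ[R] Y) (h : IsSyzygy M m Y) : IsSyzygy M m X := by
  cases m with
  | zero =>
    obtain ⟨e'⟩ := h
    exact ⟨e.trans e'⟩
  | succ m =>
    obtain ⟨P, Z, f, g, hPf, hPp, hf, hfg, hg, hZ⟩ := h
    refine ⟨P, Z, f.comp e.toLinearMap, g, hPf, hPp, ?_, ?_, hg, hZ⟩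
    · exact hf.comp e.injective
    · intro x
      rw [hfg x]
      constructor
      · rintro ⟨y, rfl⟩
        exact ⟨e.symm y, by simp⟩
      · rintro ⟨y, rfl⟩
        exact ⟨e y, rfl⟩

lemma IsSyzygy.trans {M Y : ModuleCat.{u} R} {m : ℕ} (hY : IsSyzygy M m Y) :
    ∀ (n : ℕ) (X : ModuleCat.{u} R), IsSyzygy Y n X → IsSyzygy M (m + n) X := by
  intro n
  induction n with
  | zero =>
    rintro X ⟨e⟩
    exact IsSyzygy.of_equiv e hY
  | succ n ih =>
    rintro X ⟨P, Z, f, g, hPf, hPp, hf, hfg, hg, hZ⟩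
    exact ⟨P, Z, f, g, hPf, hPp, hf, hfg, hg, ih Z hZ⟩

lemma exists_syzygy [IsNoetherianRing R] (M : ModuleCat.{u} R) [Module.Finite R M] (m : ℕ) :
    ∃ X : ModuleCat.{u} R, Module.Finite R X ∧ IsSyzygy M m X := by
  induction m with
  | zero => exact ⟨M, inferInstance, ⟨LinearEquiv.refl R M⟩⟩
  | succ m ih =>
    obtain ⟨Y, hYf, hY⟩ := ih
    obtain ⟨n, g, hg⟩ := Module.Finite.exists_fin' R Y
    refine ⟨ModuleCat.of R (LinearMap.ker g), ?_, ModuleCat.of R (Fin n → R), Y,
      (LinearMap.ker g).subtype, g, ?_, ?_, Submodule.subtype_injective _,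
      LinearMap.exact_subtype_ker_map g, hg, hY⟩
    · change Module.Finite R (LinearMap.ker g)
      infer_instance
    · change Module.Finite R (Fin n → R)
      infer_instance
    · change Module.Projective R (Fin n → R)
      infer_instance

end Vale.Agent.P195
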