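import Mathlib
import Vale.Agent.Lib.P195.Defs
import Vale.Agent.Lib.P195.Main

universe u v w

namespace Vale.Agent.P195

variable {R : Type u} [Ring R]

lemma isFiniteSumOf_of_fintype {ι : Type} {V : ι → ModuleCat.{u} R} {Y : ModuleCat.{u} R}
    {J : Type} [Finite J] (σ : J → ι) (e : Y ≃ₗ[R] ((j : J) → V (σ j))) : IsFiniteSumOf V Y := by
  obtain ⟨n, ⟨eq⟩⟩ := Finite.exists_equiv_fin J
  have e' : ((j : J) → V (σ j)) ≃ₗ[R] ((i : Fin n) → V (σ (eq.symm i))) :=
    LinearEquiv.piCongrLeft' R (fun j => V (σ j)) eq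
  exact ⟨n, fun i => σ (eq.symm i), ⟨e.trans e'⟩⟩

lemma IsFiniteSumOf.reindex {ι κ : Type} {V : ι → ModuleCat.{u} R} {V' : κ → ModuleCat.{u} R}
    (t : ι → κ) (ht : ∀ i, V i = V' (t i)) {Y : ModuleCat.{u} R} (h : IsFiniteSumOf V Y) :
    IsFiniteSumOf V' Y := by
  obtain ⟨n, σ, ⟨e⟩⟩ := h
  have e' : ((i : Fin n) → V (σ i)) ≃ₗ[R] ((i : Fin n) → V' (t (σ i))) :=
    LinearEquiv.piCongrRight fun i => (eqToIso' (ht (σ i)))
  exact ⟨n, fun i => t (σ i), ⟨e.trans e'⟩⟩
where
  eqToIso' {A B : ModuleCat.{u} R} (h : A = B) : A ≃ₗ[R] B := h ▸ LinearEquiv.refl R A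

lemma IsFiniteSumOf.prod {ι κ : Type} {V : ι → ModuleCat.{u} R} {W : κ → ModuleCat.{u} R}
    {A B : ModuleCat.{u} R} (hA : IsFiniteSumOf V A) (hB : IsFiniteSumOf W B) :
    IsFiniteSumOf (Sum.elim V W) (ModuleCat.of R (A × B)) := by
  obtain ⟨n, σ, ⟨e⟩⟩ := hA
  obtain ⟨m, τ, ⟨f⟩⟩ := hB
  refine isFiniteSumOf_of_fintype (J := Fin n ⊕ Fin m) (Sum.map σ τ) ?_
  have e' : (((i : Fin n) → V (σ i)) × ((j : Fin m) → W (τ j))) ≃ₗ[R]
      ((j : Fin n ⊕ Fin m) → (Sum.elim V W (Sum.map σ τ j) : ModuleCat.{u} R)) :=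
    (LinearEquiv.sumPiEquivProdPi R (Fin n) (Fin m)
      (fun j => ((Sum.elim V W (Sum.map σ τ j) : ModuleCat.{u} R) : Type u))).symm
  exact (LinearEquiv.prodCongr e f).trans e'

/-- From an extension of `B` by `A` to a two-term presentation. -/
lemma twoTerm_of_extension {ι κ : Type} (V : ι → ModuleCat.{u} R) (W F K : κ → ModuleCat.{u} R)
    (a : ∀ j, K j →ₗ[R] F j) (b : ∀ j, F j →ₗ[R] W j)
    (ha : ∀ j, Function.Injective (a j)) (hab : ∀ j, Function.Exact (a j) (b j))
    (hb : ∀ j, Function.Surjective (b j)) (hF : ∀ j, Module.Projective R (F j))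
    {X A B : ModuleCat.{u} R} (f : A →ₗ[R] X) (g : X →ₗ[R] B)
    (hf : Function.Injective f) (hfg : Function.Exact f g) (hg : Function.Surjective g)
    (hA : IsFiniteSumOf V A) (hB : IsFiniteSumOf W B) :
    TwoTerm (Sum.elim (Sum.elim V F) K) X := by
  obtain ⟨n, σ, ⟨e⟩⟩ := hB
  let P : ModuleCat.{u} R := ModuleCat.of R ((i : Fin n) → F (σ i))
  let L : ModuleCat.{u} R := ModuleCat.of R ((i : Fin n) → K (σ i))
  let β : P →ₗ[R] B := e.symm.toLinearMap ∘ₗ LinearMap.piMap (fun i => b (σ i))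
  let i₀ : L →ₗ[R] P := LinearMap.piMap (fun i => a (σ i))
  have hi₀ : Function.Injective i₀ := by
    intro x y hxy
    funext i
    exact ha (σ i) (congrFun hxy i)
  have hβ : Function.Surjective β := by
    intro y
    choose s hs using fun i => hb (σ i) (e y i)
    refine ⟨s, ?_⟩
    change e.symm _ = y
    rw [LinearEquiv.symm_apply_eq]
    funext i
    exact hs i
  have hex : Function.Exact i₀ β := by
    intro p
    have : β p = 0 ↔ ∀ i, b (σ i) (p i) = 0 := by
      change e.symm _ = 0 ↔ _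
      rw [LinearEquiv.map_eq_zero_iff, funext_iff]
      rfl
    rw [this]
    constructor
    · intro h
      choose s hs using fun i => (hab (σ i) (p i)).mp (h i)
      exact ⟨s, funext hs⟩
    · rintro ⟨q, rfl⟩ i
      exact (hab (σ i)).apply_apply_eq_zero (q i)
  have hP : Module.Projective R P := by
    have : Module.Projective R (Π₀ i : Fin n, F (σ i)) := inferInstance
    exact Module.Projective.of_equiv (DFinsupp.linearEquivFunOnFintype (R := R)
      (M := fun i : Fin n => F (σ i)))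
  obtain ⟨l, hl⟩ := Module.projective_lifting_property g β hg
  have hl' : ∀ p, g (l p) = β p := fun p => LinearMap.congr_fun hl p
  let c : L →ₗ[R] A := (LinearEquiv.ofInjective f hf).symm.toLinearMap ∘ₗ
    (l ∘ₗ i₀).codRestrict (LinearMap.range f) (by
      intro q
      have : g ((l ∘ₗ i₀) q) = 0 := by
        change g (l (i₀ q)) = 0
        rw [hl']
        exact hex.apply_apply_eq_zero q
      exact (hfg _).mp this)
  have hc : ∀ q, f (c q) = l (i₀ q) := by
    intro q
    have := LinearEquiv.apply_symm_apply (LinearEquiv.ofInjective f hf)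
      ((l ∘ₗ i₀).codRestrict (LinearMap.range f) (by
        intro q
        have : g ((l ∘ₗ i₀) q) = 0 := by
          change g (l (i₀ q)) = 0
          rw [hl']
          exact hex.apply_apply_eq_zero q
        exact (hfg _).mp this) q)
    exact congrArg Subtype.val this
  let G : (ModuleCat.of R (A × P)) →ₗ[R] X := LinearMap.coprod f l
  let Fm : L →ₗ[R] (ModuleCat.of R (A × P)) := LinearMap.prod (-c) i₀
  refine ⟨L, ModuleCat.of R (A × P), Fm, G, ?_, ?_, ?_, ?_, ?_⟩
  · exact IsFiniteSumOf.reindex (V := K) (t := Sum.inr) (fun _ => rfl)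
      ⟨n, σ, ⟨LinearEquiv.refl R _⟩⟩
  · have h1 : IsFiniteSumOf F P := ⟨n, σ, ⟨LinearEquiv.refl R _⟩⟩
    exact IsFiniteSumOf.reindex (V := Sum.elim V F) (t := Sum.inl) (fun _ => rfl) (hA.prod h1)
  · intro x y hxy
    exact hi₀ (congrArg Prod.snd hxy)
  · rintro ⟨x, p⟩
    constructor
    · intro h
      have h0 : f x + l p = 0 := h
      have h1 : β p = 0 := by
        have h2 : g (f x + l p) = 0 := by rw [h0, map_zero]
        rw [map_add, hfg.apply_apply_eq_zero x, zero_add, hl'] at h2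
        exact h2
      obtain ⟨q, rfl⟩ := (hex p).mp h1
      refine ⟨q, ?_⟩
      change ((-c) q, i₀ q) = (x, i₀ q)
      have : (-c) q = x := by
        apply hf
        rw [LinearMap.neg_apply, map_neg, hc]
        exact (eq_neg_of_add_eq_zero_left h0).symm
      rw [this]
    · rintro ⟨q, hq⟩
      have h1 : x = (-c) q := congrArg Prod.fst hq.symm
      have h2 : p = i₀ q := congrArg Prod.snd hq.symm
      change f x + l p = 0
      rw [h1, h2, LinearMap.neg_apply, map_neg, hc, neg_add_cancel]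
  · intro x
    obtain ⟨p, hp⟩ := hβ (g x)
    have : g (x - l p) = 0 := by rw [map_sub, hl', hp, sub_self]
    obtain ⟨y, hy⟩ := (hfg _).mp this
    refine ⟨(y, p), ?_⟩
    change f y + l p = x
    rw [hy, sub_add_cancel]

section

variable (k : Type w) [CommRing k] [IsArtinianRing k] [Algebra k R]
    [Module.Finite k R]

open CategoryTheory CategoryTheory.Abelian

include k in
/-- The key theorem with an arbitrary finite index type. -/
theorem projective_of_twoTerm' {ι : Type} [Finite ι] (V : ι → ModuleCat.{u} R)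
    (hV : ∀ i, Module.Finite R (V i)) (M : ModuleCat.{u} R) [Module.Finite R M]
    (hMM : ∀ i, 1 ≤ i → ∀ x : Ext M M i, x = 0)
    (hMR : ∀ i, 1 ≤ i → ∀ x : Ext M (ModuleCat.of R R) i, x = 0)
    (hinf : ∀ N, ∃ l, N ≤ l ∧ ∃ X : ModuleCat.{u} R, IsSyzygy M l X ∧ TwoTerm V X) :
    Module.Projective R M := by
  obtain ⟨r, ⟨eq⟩⟩ := Finite.exists_equiv_fin ι
  refine projective_of_twoTerm k (fun j : Fin r => V (eq.symm j)) (fun j => hV _) M hMM hMR ?_
  intro N
  obtain ⟨l, hl, X, hX, B, A, f, g, hB, hA, h⟩ := hinf N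
  exact ⟨l, hl, X, hX, B, A, f, g, hB.reindex eq (fun i => by rw [eq.symm_apply_apply]),
    hA.reindex eq (fun i => by rw [eq.symm_apply_apply]), h⟩

end

end Vale.Agent.P195
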