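import Mathlib
import Vale.Agent.Lib.P195.Defs
import Vale.Agent.Lib.P195.Main
import Vale.Agent.Lib.P195.TwoTerm
import Vale.Agent.Lib.P195.Cover
import Vale.Agent.Lib.P195.SyzygyTools

universe u v w

open CategoryTheory CategoryTheory.Abelian

namespace Vale.Agent.P195

variable {R : Type u} [Ring R]

/-- Working form of finite representation type. -/
def RepFin (A : Type u) [Ring A] : Prop :=
  ∃ (r : ℕ) (V : Fin r → ModuleCat.{u} A), (∀ i, Module.Finite A (V i)) ∧
    ∀ Y : ModuleCat.{u} A, Module.Finite A Y → IsFiniteSumOf V Y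

section

variable (I : Ideal R) [I.IsTwoSided]

/-- inflation of an `R/I`-module -/
noncomputable abbrev infl (V : ModuleCat.{u} (R ⧸ I)) : ModuleCat.{u} R :=
  (ModuleCat.restrictScalars (Ideal.Quotient.mk I)).obj V

lemma finite_infl (V : ModuleCat.{u} (R ⧸ I)) [h : Module.Finite (R ⧸ I) V] :
    Module.Finite R (infl I V) := by
  obtain ⟨s, hs⟩ := h.fg_top
  let s' : Finset (infl I V) := s
  refine ⟨⟨s', ?_⟩⟩
  rw [eq_top_iff]
  have key : ∀ x : V, x ∈ Submodule.span (R ⧸ I) (s : Set V) →
      (show (infl I V : Type u) from x) ∈ Submodule.span R (s' : Set (infl I V)) := by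
    intro x hx
    induction hx using Submodule.span_induction with
    | mem x h => exact Submodule.subset_span h
    | zero => exact Submodule.zero_mem _
    | add x y _ _ hx hy => exact Submodule.add_mem _ hx hy
    | smul a x _ hx =>
      obtain ⟨a, rfl⟩ := Ideal.Quotient.mk_surjective a
      exact Submodule.smul_mem _ a hx
  intro x _
  exact key x (hs ▸ trivial)

lemma isFiniteSumOf_infl {r : ℕ} {V : Fin r → ModuleCat.{u} (R ⧸ I)}
    (h : ∀ Y : ModuleCat.{u} (R ⧸ I), Module.Finite (R ⧸ I) Y → IsFiniteSumOf V Y)
    (Y : ModuleCat.{u} R) [Module.Finite R Y] (hY : ∀ a ∈ I, ∀ y : Y, a • y = 0) :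
    IsFiniteSumOf (fun i => infl I (V i)) Y := by
  have hT : Module.IsTorsionBySet R Y I := fun y a => hY a a.2 y
  let _ : Module (R ⧸ I) Y := hT.module
  have hsm : ∀ (a : R) (y : Y), (Ideal.Quotient.mk I a) • y = a • y := fun a y =>
    Module.IsTorsionBySet.mk_smul hT a y
  have hfin : Module.Finite (R ⧸ I) Y := by
    obtain ⟨s, hs⟩ := (inferInstance : Module.Finite R Y).fg_top
    refine ⟨⟨s, ?_⟩⟩
    rw [eq_top_iff]
    have key : ∀ x : Y, x ∈ Submodule.span R (s : Set Y) →
        x ∈ Submodule.span (R ⧸ I) (s : Set Y) := by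
      intro x hx
      induction hx using Submodule.span_induction with
      | mem x h => exact Submodule.subset_span h
      | zero => exact Submodule.zero_mem _
      | add x y _ _ hx hy => exact Submodule.add_mem _ hx hy
      | smul a x _ hx =>
        rw [← hsm]
        exact Submodule.smul_mem _ _ hx
    intro x _
    exact key x (hs ▸ trivial)
  obtain ⟨n, σ, ⟨e⟩⟩ := h (ModuleCat.of (R ⧸ I) Y) hfin
  refine ⟨n, σ, ⟨?_⟩⟩
  exact
    { toFun := fun y => e y
      map_add' := fun x y => map_add e x y
      map_smul' := by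
        intro a y
        have h1 : e (a • y) = e ((Ideal.Quotient.mk I a) • y) := by rw [hsm]
        rw [h1]
        exact map_smul e (Ideal.Quotient.mk I a) y
      invFun := fun z => e.symm z
      left_inv := fun y => e.symm_apply_apply y
      right_inv := fun z => e.apply_symm_apply z }

end

section

variable (k : Type w) [CommRing k] [IsArtinianRing k] [Algebra k R]
    [Module.Finite k R]

include k in
/-- The theorem for two ideals. -/
theorem projective_of_ideals (I K : Ideal R) [I.IsTwoSided] [K.IsTwoSided]
    (hIK : ∀ a ∈ I, ∀ b ∈ K, ∀ c ∈ Ring.jacobson R, a * b * c = 0)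
    (hI : RepFin (R ⧸ I)) (hK : RepFin (R ⧸ K)) (M : ModuleCat.{u} R) [Module.Finite R M]
    (hMM : ∀ i, 1 ≤ i → ∀ x : Ext M M i, x = 0)
    (hMR : ∀ i, 1 ≤ i → ∀ x : Ext M (ModuleCat.of R R) i, x = 0) :
    Module.Projective R M := by
  have hArt : IsArtinianRing R := IsArtinianRing.of_finite k R
  have hNoe : IsNoetherianRing R := IsNoetherianRing.of_finite k R
  obtain ⟨r, V, hV, hV'⟩ := hI
  obtain ⟨s, W, hW, hW'⟩ := hK
  have hVf : ∀ i, Module.Finite R (infl I (V i)) := fun i => by
    have := hV i
    exact finite_infl I (V i)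
  have hWf : ∀ i, Module.Finite R (infl K (W i)) := fun i => by
    have := hW i
    exact finite_infl K (W i)
  -- chosen free covers
  choose m b hb using fun i => by
    have := hWf i
    exact Module.Finite.exists_fin' R (infl K (W i))
  let F : Fin s → ModuleCat.{u} R := fun i => ModuleCat.of R (Fin (m i) → R)
  let Kr : Fin s → ModuleCat.{u} R := fun i => ModuleCat.of R (LinearMap.ker (b i))
  let fam : (Fin r ⊕ Fin s) ⊕ Fin s → ModuleCat.{u} R :=
    Sum.elim (Sum.elim (fun i => infl I (V i)) F) Kr
  refine projective_of_twoTerm' k fam ?_ M hMM hMR ?_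
  · rintro ((i | i) | i)
    · exact hVf i
    · change Module.Finite R (Fin (m i) → R)
      infer_instance
    · change Module.Finite R (LinearMap.ker (b i))
      infer_instance
  · intro N
    obtain ⟨Y, hYf, hY⟩ := exists_syzygy M N
    obtain ⟨P, g, hPf, hPp, hg, hker⟩ := exists_projective_cover (R := R) Y
    let X : ModuleCat.{u} R := ModuleCat.of R (LinearMap.ker g)
    have hXf : Module.Finite R X := by
      change Module.Finite R (LinearMap.ker g)
      infer_instance
    have hX : IsSyzygy M (N + 1) X :=
      ⟨P, Y, (LinearMap.ker g).subtype, g, hPf, hPp, Submodule.subtype_injective _,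
        LinearMap.exact_subtype_ker_map g, hg, hY⟩
    refine ⟨N + 1, Nat.le_succ N, X, hX, ?_⟩
    let A : Submodule R X := K • (⊤ : Submodule R X)
    have hAI : ∀ a ∈ I, ∀ y : A, a • y = 0 := by
      rintro a ha ⟨y, hy⟩
      apply Subtype.ext
      change a • y = 0
      have : ∀ y ∈ A, a • y = 0 := by
        intro y hy
        refine Submodule.smul_induction_on (p := fun y => a • y = 0) hy ?_ ?_
        · rintro c hc ⟨x, hx⟩ -
          have hx' : x ∈ Ring.jacobson R • (⊤ : Submodule R P) := hker hx
          apply Subtype.ext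
          change a • c • x = 0
          rw [smul_smul]
          refine Submodule.smul_induction_on (p := fun x => (a * c) • x = 0) hx' ?_ ?_
          · intro d hd p _
            rw [smul_smul, hIK a ha c hc d hd, zero_smul]
          · intro x y hx hy
            rw [smul_add, hx, hy, add_zero]
        · intro x y hx hy
          rw [smul_add, hx, hy, add_zero]
      exact this y hy
    have hBK : ∀ a ∈ K, ∀ y : X ⧸ A, a • y = 0 := by
      intro a ha y
      obtain ⟨y, rfl⟩ := A.mkQ_surjective y
      rw [← map_smul, Submodule.mkQ_apply, Submodule.Quotient.mk_eq_zero]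
      exact Submodule.smul_mem_smul ha trivial
    have hAf : Module.Finite R A := inferInstance
    have hA : IsFiniteSumOf (fun i => infl I (V i)) (ModuleCat.of R A) :=
      isFiniteSumOf_infl I hV' (ModuleCat.of R A) hAI
    have hB : IsFiniteSumOf (fun i => infl K (W i)) (ModuleCat.of R (X ⧸ A)) :=
      isFiniteSumOf_infl K hW' (ModuleCat.of R (X ⧸ A)) hBK
    exact twoTerm_of_extension (fun i => infl I (V i)) (fun i => infl K (W i)) F Kr
      (fun i => (LinearMap.ker (b i)).subtype) b (fun i => Submodule.subtype_injective _)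
      (fun i => LinearMap.exact_subtype_ker_map (b i)) hb
      (fun i => by change Module.Projective R (Fin (m i) → R); infer_instance)
      (A := ModuleCat.of R A) (B := ModuleCat.of R (X ⧸ A))
      A.subtype A.mkQ (Submodule.subtype_injective _) (LinearMap.exact_subtype_mkQ A)
      A.mkQ_surjective hA hB

end

end Vale.Agent.P195
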