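import Mathlib
import Vale.Agent.Lib.P195.Defs
import Vale.Agent.Lib.P195.RepFinite

universe u v w

open CategoryTheory CategoryTheory.Abelian

namespace Vale.Agent.P195

lemma repFin_of_isSemisimpleRing (A : Type u) [Ring A] [IsSemisimpleRing A] : RepFin A := by
  obtain ⟨n, S, e, hS⟩ := IsSemisimpleModule.exists_linearEquiv_fin_dfinsupp A A
  have hfin : ∀ i, Module.Finite A (S i) := fun i => by
    have := hS i
    infer_instance
  refine ⟨n, fun i => ModuleCat.of A (S i), hfin, ?_⟩
  intro Y hY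
  obtain ⟨m, T, f, hT⟩ := IsSemisimpleModule.exists_linearEquiv_fin_dfinsupp A Y
  have key : ∀ j : Fin m, ∃ i : Fin n, Nonempty (T j ≃ₗ[A] S i) := by
    intro j
    have := hT j
    obtain ⟨I, ⟨eI⟩⟩ := IsSemisimpleRing.exists_linearEquiv_ideal_of_isSimpleModule A (T j)
    -- the embedding of T j into A
    let φ : T j →ₗ[A] (Π₀ i : Fin n, S i) := e.toLinearMap ∘ₗ I.subtype ∘ₗ eI.toLinearMap
    have hφ : Function.Injective φ :=
      e.injective.comp (I.injective_subtype.comp eI.injective)
    have hne : ∃ i, (DFinsupp.lapply i ∘ₗ φ : T j →ₗ[A] S i) ≠ 0 := by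
      by_contra hcon
      push Not at hcon
      have hnt := IsSimpleModule.nontrivial A (T j)
      obtain ⟨x, hx⟩ := exists_ne (0 : T j)
      apply hx
      apply hφ
      rw [map_zero]
      ext i
      have := LinearMap.congr_fun (hcon i) x
      exact congrArg Subtype.val this
    obtain ⟨i, hi⟩ := hne
    have := hS i
    exact ⟨i, ⟨LinearEquiv.ofBijective _ (LinearMap.bijective_of_ne_zero hi)⟩⟩
  choose σ hσ using key
  refine ⟨m, σ, ⟨?_⟩⟩
  have e' : (Π₀ j : Fin m, T j) ≃ₗ[A] ((j : Fin m) → T j) :=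
    DFinsupp.linearEquivFunOnFintype
  have e'' : ((j : Fin m) → T j) ≃ₗ[A] ((j : Fin m) → ModuleCat.of A (S (σ j))) :=
    LinearEquiv.piCongrRight fun j => (hσ j).some
  exact (f.trans e').trans e''

end Vale.Agent.P195
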